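import Vale.Agent.P022S.Bex
import Vale.Agent.P022D.G.Key0
import Vale.Agent.P022D.G.KeyN2

/-! # P022S: from the deep group to forms, no unit among the Hecke operators -/

set_option linter.all false

open scoped MatrixGroups ModularForm
open UpperHalfPlane CongruenceSubgroup

noncomputable section

namespace Vale.Agent.P022S.Bex

open Vale.Agent.P022 Vale.Agent.P022.H161.CLat Vale.Agent.P022.H161.COp Vale.Agent.P022.L3
open Vale.Agent.P022.H527.L3 hiding M2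
open Vale.Agent.P022.H420.L3 (M2 Pw act)
open Vale.Agent.P022D.G

theorem key0s (N N₀ : ℕ) [NeZero N] (hN : N₀ ∣ N) (ho : Odd N) (K : Finset ℕ)
    (hK : ∀ i ∈ K, 1 ≤ i) (B : Type) [CommRing B] (s : ℕ) (hs : (2 : B) ^ s = 0) (β : Wd N →+* B)
    (hβ : ∀ Q, Kil N N N₀ K Q → β Q = 0) : ∃ n₀ : ℕ, ∀ n M : ℕ, n₀ ≤ n → n ≤ M → ∀ Q : Wd N,
    (∀ w, w + 1 ∈ K → ∀ u : ZC (Gm N N₀) w, Van M n (rW hN w Q u)) → β Q = 0 := by
  haveI := fg_Gm hN
  obtain ⟨e, he, hl⟩ := lat (Gm N N₀) (Wd N) (K.image (· - 1))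
    (fun w => (rW hN w).toRingHom.toAddMonoidHom) fun _ => ⊤
  obtain ⟨C, hC, hb⟩ := bexK hN ho (K.image (· - 1))
  obtain ⟨a, m, hm, h2⟩ := Nat.exists_eq_two_pow_mul_odd (mul_ne_zero he hC)
  refine ⟨a + s, fun n M hn hM Q hQ => ?_⟩
  obtain ⟨R, hR⟩ := hl n (C • Q) fun w hw u _ => by
    obtain ⟨i, hi, rfl⟩ := Finset.mem_image.1 hw
    obtain ⟨v, hv⟩ := hb _ hw M n hM (rW hN (i - 1) Q u)
      (hQ (i - 1) (by rw [Nat.sub_add_cancel (hK i hi)]; exact hi) u)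
    refine ⟨v, BZ_le ?_⟩
    show rW hN (i - 1) (C • Q) u - 2 ^ n • v ∈ _
    rw [map_nsmul]
    exact hv
  obtain ⟨k, rfl⟩ := Nat.exists_eq_add_of_le hn
  have hY : Kil N N N₀ K (m • Q - 2 ^ (s + k) • R) := by
    intro i hi f hf
    obtain ⟨w, rfl⟩ := Nat.exists_eq_add_of_le' (hK i hi)
    have := kil_of hN w (2 ^ a • (m • Q - 2 ^ (s + k) • R)) (fun u => by
      have h := hR w (Finset.mem_image.2 ⟨w + 1, hi, rfl⟩) u trivial
      rw [smul_sub, smul_smul, smul_smul, ← h2, ← pow_add, ← add_assoc, mul_smul, map_sub,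
        map_nsmul, map_nsmul _ (2 ^ _)]
      exact h) f hf
    rw [map_nsmul, LinearMap.smul_apply, ← Nat.cast_smul_eq_nsmul ℂ] at this
    exact (smul_eq_zero.1 this).resolve_left (by exact_mod_cast pow_ne_zero _ two_ne_zero)
  have h := hβ _ hY
  rw [map_sub, map_nsmul, map_nsmul, nsmul_eq_mul, nsmul_eq_mul,
    Nat.cast_pow, pow_add _ s, Nat.cast_ofNat, hs, zero_mul, zero_mul, sub_zero] at h
  exact (odd_unit hs hm).mul_right_eq_zero.1 h

open KeyN (fg ex_c A E0_apply kill2) in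
theorem keyns (M q : ℕ) [NeZero (M * q)] (hodd : Odd (M * q)) (hq : q.Prime) (hM : ¬ q ∣ 2 * M)
    (γ : SL(2, ℤ)) (hγ : AL1 M q γ)
    (rU : Rep (rho (Gm (M * q) M)) fun j : Fin q => alp 0 q γ (some j))
    (rV : Rep (rho (Gm (M * q) M)) fun _ : Unit => alp 0 q γ none) (K : Finset ℕ)
    (B : Type) [CommRing B] (s : ℕ) (hs : (2 : B) ^ s = 0) (hK : ∀ i ∈ K, 1 ≤ i)
    (β : Wd (M * q) →+* B) (hβ : ∀ Q, KilN M q γ K Q → β Q = 0) :
    ∃ n₀ : ℕ, ∀ n a : ℕ, n₀ ≤ n → n ≤ a → ∀ Y : Wd (M * q),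
    (∀ w, w + 1 ∈ K → ∀ u : ZC (Gm (M * q) M) w, trZ rU rV w u ∈ BZ _ w →
      trZ rU rV w (opZ rV w u) ∈ BZ _ w →
      Van a n (rW (dvd_mul_right M q) w Y ((q + 1) • u))) → β Y = 0 := by
  haveI := fg (dvd_mul_right M q)
  obtain ⟨c, hc, hcs⟩ := ex_c (Gm (M * q) M) (K.image (· - 1))
  obtain ⟨e, he, hl⟩ := lat (Gm (M * q) M) (Wd (M * q)) (K.image (· - 1))
    (fun w => (rW (dvd_mul_right M q) w).toRingHom.toAddMonoidHom) (A rU rV)
  obtain ⟨C, hC, hb⟩ := bexK (dvd_mul_right M q) hodd (K.image (· - 1))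
  obtain ⟨a₀, e₁, ho, h2⟩ := Nat.exists_eq_two_pow_mul_odd
    (show e * (C * ((q + 1) * c)) ≠ 0 from
      mul_ne_zero he (mul_ne_zero hC (mul_ne_zero q.succ_ne_zero hc)))
  refine ⟨a₀ + s, fun n a hn ha Y hY => ?_⟩
  obtain ⟨R, hR⟩ := hl n ((C * ((q + 1) * c)) • Y) fun w hw u hu => by
    obtain ⟨i, hi, rfl⟩ := Finset.mem_image.1 hw
    have hi' : i - 1 + 1 ∈ K := by rwa [Nat.sub_add_cancel (hK i hi)]
    obtain ⟨v, hv⟩ := hb _ hw a n ha _
      (hY _ hi' (c • u) (by rw [← E0_apply, map_nsmul]; exact hcs _ hw _ hu.1)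
        (by rw [← E0_apply, map_nsmul, map_nsmul]; exact hcs _ hw _ hu.2))
    refine ⟨v, BZ_le ?_⟩
    rw [smul_smul, map_nsmul, smul_smul] at hv
    show rW _ _ (_ • _) u - _ ∈ _
    rw [map_nsmul]
    exact hv
  obtain ⟨m, rfl⟩ := Nat.exists_eq_add_of_le hn
  have hZ : KilN M q γ K (e₁ • Y - 2 ^ (s + m) • R) := by
    intro w hi f hf
    have := kill2 rU rV w hq hM hγ
      (Z := 2 ^ a₀ • (e₁ • Y - 2 ^ (s + m) • R)) (fun u hu => by
        have h := hR w (Finset.mem_image.2 ⟨w + 1, hi, rfl⟩) u hu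
        rw [smul_sub, smul_smul, smul_smul, ← h2, ← pow_add, ← add_assoc, mul_smul, map_sub,
          map_nsmul, map_nsmul _ (2 ^ _)]
        exact h) f hf
    rw [map_nsmul, LinearMap.smul_apply, ← Nat.cast_smul_eq_nsmul ℂ] at this
    exact (smul_eq_zero.1 this).resolve_left (by exact_mod_cast pow_ne_zero _ two_ne_zero)
  have h := hβ _ hZ
  rw [map_sub, map_nsmul, map_nsmul, nsmul_eq_mul, nsmul_eq_mul,
    Nat.cast_pow, pow_add _ s, Nat.cast_ofNat, hs, zero_mul, zero_mul, sub_zero] at h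
  exact (odd_unit hs ho).mul_right_eq_zero.1 h

end Vale.Agent.P022S.Bex
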